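import Vale.Agent.P132.Tomita.Spec
import Vale.Agent.P104.Continuous.Basic

/-!
P132, cone: the closed cone spanned by the vectors `x J x J ξ`, its positivity and the inequality
of Powers and Størmer.
-/

open scoped InnerProductSpace ComplexConjugate
open Vale.Agent.P104.Continuous
open Vale.Agent.P132.Tomita

namespace Vale.Agent.P132.Cone

universe u

variable {H : Type u} [NormedAddCommGroup H] [InnerProductSpace ℂ H] [CompleteSpace H]
  {M : VonNeumannAlgebra H} {ξ : H} {R : H →L[ℂ] H} {J : H ≃ₗᵢ⋆[ℂ] H} {U : ℝ → (H →L[ℂ] H)}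

attribute [local instance] InnerProductSpace.complexToReal

omit [CompleteSpace H] in
theorem J_smul_ofReal (t : ℝ) (v : H) : J ((t : ℂ) • v) = (t : ℂ) • J v := by
  rw [map_smulₛₗ, Complex.conj_ofReal]

omit [CompleteSpace H] in
theorem re_inner_J (u v : H) : (⟪J u, J v⟫_ℂ).re = (⟪u, v⟫_ℂ).re := by
  have h1 := norm_add_sq (𝕜 := ℂ) (J u) (J v)
  have h2 := norm_add_sq (𝕜 := ℂ) u v
  rw [← map_add, J.norm_map, J.norm_map, J.norm_map] at h1
  simp only [RCLike.re_to_complex] at h1 h2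
  linarith

omit [CompleteSpace H] in
theorem inner_J (u v : H) : ⟪J u, J v⟫_ℂ = conj ⟪u, v⟫_ℂ := by
  refine Complex.ext (by rw [re_inner_J, Complex.conj_re]) ?_
  have h := re_inner_J (J := J) u (Complex.I • v)
  rw [map_smulₛₗ, inner_smul_right, inner_smul_right] at h
  simp at h
  rw [Complex.conj_im]
  linarith

variable (hm : Modular M ξ R J U)
include hm

/-- `J x J` commutes with `M`. -/
theorem comm_apply {x z : H →L[ℂ] H} (hx : x ∈ M) (hz : z ∈ M) (v : H) :
    z (J (x (J v))) = J (x (J (z v))) :=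
  DFunLike.congr_fun (VonNeumannAlgebra.mem_commutant_iff.1 (hm.conj_mem x hx) z hz) v

theorem inner_J_left (u v : H) : ⟪J u, v⟫_ℂ = conj ⟪u, J v⟫_ℂ := by
  conv_lhs => rw [← hm.J_J v]
  exact inner_J u (J v)

/-! ### Positivity -/

omit hm in
theorem opT_sa : IsSelfAdjoint (opT R) := IsSelfAdjoint.cfc

theorem opT_inj {v : H} (h : opT R v = 0) : v = 0 := by
  refine hm.dense_T.eq_zero_of_inner_left (𝕜 := ℂ) fun u => ?_
  rw [← inner_proj opT_sa, h, inner_zero_left]

/-- For `a = c ξ` and `d = J (c⋆ ξ)` there is `k` with `a = √R k`, `d = √(2-R) k`. -/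
theorem exists_root {c : H →L[ℂ] H} (hc : c ∈ M) : ∃ k : H,
    cfc Real.sqrt R k = c ξ ∧ cfc (fun r => Real.sqrt (2 - r)) R k = J ((star c) ξ) := by
  set a := c ξ
  set d := J ((star c) ξ) with hd
  have hs : ∀ r ∈ spectrum ℝ R, 0 ≤ r ∧ r ≤ 2 := fun r hr => ⟨(hm.R_spec hr).1, (hm.R_spec hr).2⟩
  have h1 : (2 : ℂ) • a - R a = opT R d := by
    have := congrArg J (hm.S_eq c hc)
    rwa [hm.J_J, hm.J_T] at this
  have h2 : opT R a = R d := by
    have := hm.S_eq (star c) (star_mem hc)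
    rw [star_star, map_sub, map_smulₛₗ, hm.J_R, map_ofNat] at this
    rw [← this, hd]; abel
  set A := cfc Real.sqrt R
  set B := cfc (fun r => Real.sqrt (2 - r)) R
  have cA : ContinuousOn Real.sqrt (spectrum ℝ R) := Real.continuous_sqrt.continuousOn
  have cB : ContinuousOn (fun r : ℝ => Real.sqrt (2 - r)) (spectrum ℝ R) := by fun_prop
  have sR : IsSelfAdjoint R := hm.R_sa
  have eAA : A * A = R := by
    conv_rhs => rw [← cfc_id ℝ R]
    rw [← cfc_mul _ _ R cA cA]
    exact cfc_congr fun r hr => Real.mul_self_sqrt (hs r hr).1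
  have eBB : B * B = (2 : ℂ) • 1 - R := by
    have e2 : (2 : ℂ) • (1 : H →L[ℂ] H) = algebraMap ℝ _ 2 := by
      rw [Algebra.algebraMap_eq_smul_one, ← Complex.coe_smul]
      norm_num
    rw [← cfc_mul _ _ R cB cB, e2]
    conv_rhs => rw [← cfc_id ℝ R, ← cfc_const (2 : ℝ) R, ← cfc_sub _ _ R]
    exact cfc_congr fun r hr => Real.mul_self_sqrt (by linarith [(hs r hr).2])
  have eAB : A * B = opT R := by
    rw [← cfc_mul _ _ R cA cB]
    exact cfc_congr fun r hr => (Real.sqrt_mul (hs r hr).1 _).symm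
  have eBA : B * A = opT R := by
    rw [← cfc_mul _ _ R cB cA]
    exact cfc_congr fun r hr => by rw [fT, mul_comm, Real.sqrt_mul (hs r hr).1]
  refine ⟨(2 : ℂ)⁻¹ • (A a + B d), ?_, ?_⟩
  · rw [map_smul, map_add, ← apply_mul A A, ← apply_mul A B, eAA, eAB, ← h1, add_sub_cancel, smul_smul,
      inv_mul_cancel₀ (by norm_num : (2 : ℂ) ≠ 0), one_smul]
  · rw [map_smul, map_add, ← apply_mul B A, ← apply_mul B B, eBA, eBB, h2]
    simp only [sub_apply, smul_apply, one_apply_eq_self]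
    rw [add_sub_cancel, smul_smul, inv_mul_cancel₀ (by norm_num : (2 : ℂ) ≠ 0), one_smul]

/-- `⟪c ξ, J (c⋆ ξ)⟫` is real, nonnegative, and zero only when `c ξ = 0`. -/
theorem inner_root {c : H →L[ℂ] H} (hc : c ∈ M) : ∃ r : ℝ, 0 ≤ r ∧
    ⟪c ξ, J ((star c) ξ)⟫_ℂ = (r : ℂ) ∧ (r = 0 → c ξ = 0) := by
  obtain ⟨k, ha, hd⟩ := exists_root hm hc
  set S := cfc (fun r => Real.sqrt (fT r)) R
  have hsa : ∀ f : ℝ → ℝ, IsSelfAdjoint (cfc f R) := fun f => IsSelfAdjoint.cfc
  have sR : IsSelfAdjoint R := hm.R_sa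
  have e1 : cfc Real.sqrt R * cfc (fun r => Real.sqrt (2 - r)) R = S * S := by
    rw [← cfc_mul _ _ R (by fun_prop) (by fun_prop), ← cfc_mul _ _ R (by unfold fT; fun_prop)
      (by unfold fT; fun_prop)]
    exact cfc_congr fun r hr => by
      rw [fT, Real.mul_self_sqrt (Real.sqrt_nonneg _), Real.sqrt_mul (hm.R_spec hr).1]
  have e2 : S * S = opT R := by
    rw [← cfc_mul _ _ R (by unfold fT; fun_prop) (by unfold fT; fun_prop)]
    exact cfc_congr fun r hr => Real.mul_self_sqrt (Real.sqrt_nonneg _)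
  have e : ⟪c ξ, J ((star c) ξ)⟫_ℂ = ((‖S k‖ ^ 2 : ℝ) : ℂ) := by
    rw [← hd, ← ha, inner_proj (hsa _), ← apply_mul, e1, apply_mul, ← inner_proj (hsa _),
      inner_self_eq_norm_sq_to_K]
    norm_cast
  refine ⟨‖S k‖ ^ 2, by positivity, e, fun h => ?_⟩
  have h0 : S k = 0 := norm_eq_zero.1 (eq_zero_of_pow_eq_zero h)
  have hk : k = 0 := opT_inj hm (by rw [← e2, apply_mul, h0, map_zero])
  rw [← ha, hk, map_zero]

omit hm

/-- The vectors `x J x J ξ`. -/
def gen (M : VonNeumannAlgebra H) (ξ : H) (J : H ≃ₗᵢ⋆[ℂ] H) : Set H :=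
  {v | ∃ x ∈ M, x (J (x ξ)) = v}

/-- The closed cone spanned by `gen`. -/
noncomputable def cone (M : VonNeumannAlgebra H) (ξ : H) (J : H ≃ₗᵢ⋆[ℂ] H) : AddSubmonoid H :=
  (AddSubmonoid.closure (gen M ξ J)).topologicalClosure

theorem mem_cone {x : H →L[ℂ] H} (hx : x ∈ M) : x (J (x ξ)) ∈ cone M ξ J :=
  AddSubmonoid.le_topologicalClosure _ (AddSubmonoid.subset_closure ⟨x, hx, rfl⟩)

theorem cone_induction {P : H → Prop} (hc : IsClosed {v | P v}) (h0 : P 0)
    (hadd : ∀ u v, P u → P v → P (u + v)) (hgen : ∀ x ∈ M, P (x (J (x ξ)))) {v : H}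
    (hv : v ∈ cone M ξ J) : P v := by
  refine AddSubmonoid.topologicalClosure_minimal _
    (t := ({ carrier := {v | P v}, zero_mem' := h0, add_mem' := fun {u v} hu hv => hadd u v hu hv } :
      AddSubmonoid H)) (AddSubmonoid.closure_le.2 ?_) hc hv
  rintro _ ⟨x, hx, rfl⟩
  exact hgen x hx

include hm

theorem xi_mem_cone : ξ ∈ cone M ξ J := by
  simpa [hm.J_xi] using mem_cone (M := M) (ξ := ξ) (J := J) (one_mem M)

theorem cone_fix {v : H} (hv : v ∈ cone M ξ J) : J v = v := by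
  refine cone_induction (P := fun v => J v = v) (isClosed_eq J.continuous continuous_id)
    (map_zero J) (fun u v hu hv => by rw [map_add, hu, hv]) (fun x hx => ?_) hv
  have := comm_apply hm hx hx ξ
  rw [hm.J_xi] at this
  exact this.symm

theorem conj_mem_cone {z : H →L[ℂ] H} (hz : z ∈ M) {v : H} (hv : v ∈ cone M ξ J) :
    z (J (z (J v))) ∈ cone M ξ J := by
  refine cone_induction (P := fun v => z (J (z (J v))) ∈ cone M ξ J) ?_ ?_ ?_ ?_ hv
  · exact (AddSubmonoid.isClosed_topologicalClosure _).preimage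
      (z.continuous.comp (J.continuous.comp (z.continuous.comp J.continuous)))
  · simp only [map_zero]; exact zero_mem _
  · intro u w hu hw; simp only [map_add]; exact add_mem hu hw
  · intro x hx
    rw [← comm_apply hm hz hx, hm.J_J]
    exact mem_cone (mul_mem hz hx)

theorem smul_mem_cone {t : ℝ} (ht : 0 ≤ t) {v : H} (hv : v ∈ cone M ξ J) :
    (t : ℂ) • v ∈ cone M ξ J := by
  have := conj_mem_cone hm
    (z := ((Real.sqrt t : ℝ) : ℂ) • (1 : H →L[ℂ] H)) (smul_mem_vn _ (one_mem M)) hv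
  simp only [smul_apply, one_apply_eq_self, J_smul_ofReal, hm.J_J, smul_smul,
    ← Complex.ofReal_mul, Real.mul_self_sqrt ht] at this
  exact this

theorem cone_inner_gen {x y : H →L[ℂ] H} (hx : x ∈ M) (hy : y ∈ M) :
    ∃ r : ℝ, 0 ≤ r ∧ ⟪x (J (x ξ)), y (J (y ξ))⟫_ℂ = (r : ℂ) := by
  obtain ⟨r, h0, hr, -⟩ := inner_root hm (mul_mem (star_mem hy) hx)
  refine ⟨r, h0, ?_⟩
  have e : star x (y (J (y ξ))) = J (y (J (star x (y ξ)))) := by
    have h := comm_apply hm hy (mul_mem (star_mem hx) hy) ξ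
    rw [hm.J_xi] at h
    exact h
  calc ⟪x (J (x ξ)), y (J (y ξ))⟫_ℂ = ⟪J (x ξ), star x (y (J (y ξ)))⟫_ℂ := by
        rw [ContinuousLinearMap.star_eq_adjoint, ContinuousLinearMap.adjoint_inner_right]
    _ = conj ⟪x ξ, y (J (star x (y ξ)))⟫_ℂ := by rw [e, inner_J]
    _ = conj ⟪(star y * x) ξ, J ((star (star y * x)) ξ)⟫_ℂ := by
        rw [star_mul, star_star, apply_mul, apply_mul, ContinuousLinearMap.star_eq_adjoint y,
          ContinuousLinearMap.adjoint_inner_left]
    _ = (r : ℂ) := by rw [hr, Complex.conj_ofReal]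

theorem cone_inner_nonneg {v w : H} (hv : v ∈ cone M ξ J) (hw : w ∈ cone M ξ J) :
    0 ≤ (⟪v, w⟫_ℂ).re := by
  refine cone_induction (P := fun v => 0 ≤ (⟪v, w⟫_ℂ).re)
    (isClosed_le continuous_const (by fun_prop)) (by simp)
    (fun a b ha hb => by rw [inner_add_left, Complex.add_re]; exact add_nonneg ha hb) ?_ hv
  intro x hx
  refine cone_induction (P := fun w => 0 ≤ (⟪x (J (x ξ)), w⟫_ℂ).re)
    (isClosed_le continuous_const (by fun_prop)) (by simp)
    (fun a b ha hb => by rw [inner_add_right, Complex.add_re]; exact add_nonneg ha hb) ?_ hw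
  intro y hy
  obtain ⟨r, h0, hr⟩ := cone_inner_gen hm hx hy
  rw [hr]; exact h0

theorem convex_cone : Convex ℝ (cone M ξ J : Set H) := by
  intro u hu v hv s t hs ht _
  exact add_mem (Complex.coe_smul s u ▸ smul_mem_cone hm hs hu)
    (Complex.coe_smul t v ▸ smul_mem_cone hm ht hv)

/-- Every vector has a nearest point `a` of the cone; the difference `b = a - η` is in the dual
cone and is orthogonal to `a`. -/
theorem exists_nearest (η : H) : ∃ a ∈ cone M ξ J,
    (⟪a - η, a⟫_ℂ).re = 0 ∧ ∀ u ∈ cone M ξ J, 0 ≤ (⟪a - η, u⟫_ℂ).re := by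
  obtain ⟨a, ha, hmin⟩ := exists_norm_eq_iInf_of_complete_convex
    (F := H) ⟨0, zero_mem (cone M ξ J)⟩
    (AddSubmonoid.isClosed_topologicalClosure _).isComplete (convex_cone hm) η
  have h := (norm_eq_iInf_iff_real_inner_le_zero (convex_cone hm) ha).1 hmin
  have key : ∀ u ∈ cone M ξ J, 0 ≤ (⟪a - η, u⟫_ℂ).re - (⟪a - η, a⟫_ℂ).re := by
    intro u hu
    have h1 : (⟪η - a, u - a⟫_ℂ).re ≤ 0 := h u hu
    simp only [inner_sub_left, inner_sub_right, Complex.sub_re] at h1 ⊢
    linarith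
  have k0 := key 0 (zero_mem _)
  have k2 := key (a + a) (add_mem ha ha)
  rw [inner_zero_right] at k0
  rw [inner_add_right, Complex.add_re] at k2
  simp only [Complex.zero_re] at k0
  have ha0 : (⟪a - η, a⟫_ℂ).re = 0 := by linarith
  exact ⟨a, ha, ha0, fun u hu => by have := key u hu; rw [ha0] at this; linarith⟩

/-- The inequality of Powers and Størmer. -/
theorem powers_stormer {v w : H} (hv : v ∈ cone M ξ J) (hw : w ∈ cone M ξ J) {ε : ℝ} (hε : 0 ≤ ε)
    (h : ∀ y ∈ M, ‖⟪v, y v⟫_ℂ - ⟪w, y w⟫_ℂ‖ ≤ ε * ‖y‖) : ‖v - w‖ ^ 2 ≤ ε := by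
  obtain ⟨a, ha, hba, hb⟩ := exists_nearest hm (v - w)
  set b := a - (v - w) with hbdef
  have Ja : J a = a := cone_fix hm ha
  have Jb : J b = b := by
    rw [hbdef, map_sub, map_sub, Ja, cone_fix hm hv, cone_fix hm hw]
  -- first variation
  have orth : ∀ z ∈ M, (⟪b, z a⟫_ℂ).re = 0 := by
    intro z hz
    set L := (⟪b, z a⟫_ℂ).re
    set Q := (⟪b, z (J (z a))⟫_ℂ).re
    have hq : ∀ t : ℝ, 0 ≤ 2 * L * t + Q * t ^ 2 := by
      intro t
      have hmem := hb _ (conj_mem_cone hm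
        (add_mem (one_mem M) (smul_mem_vn (t : ℂ) hz)) ha)
      have e : (⟪b, J (z a)⟫_ℂ).re = L := by
        have := re_inner_J (J := J) b (z a)
        rwa [Jb] at this
      simp only [add_apply, one_apply_eq_self, smul_apply, Ja,
        map_add, J_smul_ofReal, map_smul, inner_add_right, inner_smul_right, smul_add,
        Complex.add_re, Complex.mul_re, Complex.ofReal_re, Complex.ofReal_im, zero_mul,
        sub_zero, hba, e] at hmem
      nlinarith [hmem]
    have hD : 0 < |Q| + 1 := by positivity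
    have h1 := hq (-L / (|Q| + 1))
    have e : 2 * L * (-L / (|Q| + 1)) + Q * (-L / (|Q| + 1)) ^ 2
        = L ^ 2 * (Q - 2 * (|Q| + 1)) / (|Q| + 1) ^ 2 := by field_simp; ring
    rw [e, le_div_iff₀ (pow_pos hD 2), zero_mul] at h1
    by_contra hL
    nlinarith [sq_pos_of_ne_zero hL, le_abs_self Q]
  have orth' : ∀ z ∈ M, ⟪b, z a⟫_ℂ = 0 := by
    intro z hz
    have h2 := orth _ (smul_mem_vn Complex.I hz)
    rw [smul_apply, inner_smul_right] at h2
    simp at h2
    exact Complex.ext (orth z hz) (by simpa using h2)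
  -- the support projection of `a`
  let K : Submodule ℂ H :=
    { carrier := {u | ∃ y ∈ M.commutant, y a = u}
      zero_mem' := ⟨0, zero_mem _, rfl⟩
      add_mem' := by
        rintro _ _ ⟨y, hy, rfl⟩ ⟨y', hy', rfl⟩
        exact ⟨y + y', add_mem hy hy', rfl⟩
      smul_mem' := by
        rintro c _ ⟨y, hy, rfl⟩
        exact ⟨c • y, smul_mem_vn c hy, rfl⟩ }
  have hpM : cl K ∈ M := cl_mem fun c hc u hu => by
    obtain ⟨y, hy, rfl⟩ := hu
    exact ⟨c * y, mul_mem hc hy, rfl⟩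
  have pa : cl K a = a := cl_fix ⟨1, one_mem _, rfl⟩
  have pb : cl K b = 0 := by
    refine (Submodule.starProjection_apply_eq_zero_iff K.topologicalClosure).2 ?_
    rw [Submodule.orthogonal_closure]
    refine (Submodule.mem_orthogonal' _ _).2 ?_
    rintro _ ⟨y, hy, rfl⟩
    have := orth' _ (hm.conj_mem' y hy)
    rw [show conjBy J y a = J (y (J a)) from rfl, Ja] at this
    have e := inner_J (J := J) b (y a)
    rw [Jb, this] at e
    exact (map_eq_zero _).1 e.symm
  set y := cl K + cl K - 1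
  have hyM : y ∈ M := sub_mem (add_mem hpM hpM) (one_mem M)
  have hys : IsSelfAdjoint y :=
    ((cl_isProj K).isSelfAdjoint.add (cl_isProj K).isSelfAdjoint).sub (IsSelfAdjoint.one _)
  have hyn : ‖y‖ ≤ 1 := by
    have hyy : star y * y = 1 := by
      rw [hys.star_eq]
      simp only [y, sub_mul, add_mul, mul_sub, mul_add, mul_one, one_mul,
        (cl_isProj K).isIdempotentElem.eq]
      abel
    refine ContinuousLinearMap.opNorm_le_bound _ zero_le_one fun u => ?_
    have e : ‖y u‖ ^ 2 = ‖u‖ ^ 2 := by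
      rw [ContinuousLinearMap.apply_norm_sq_eq_inner_adjoint_left,
        ← ContinuousLinearMap.star_eq_adjoint, ← ContinuousLinearMap.mul_def, hyy,
        one_apply_eq_self, ← norm_sq_eq_re_inner]
    rw [one_mul]
    exact le_of_eq ((sq_eq_sq₀ (norm_nonneg _) (norm_nonneg _)).1 e)
  have yη : y (v - w) = a + b := by
    rw [show v - w = a - b by rw [hbdef]; abel]
    simp only [y, sub_apply, add_apply, one_apply_eq_self, map_sub, pa, pb]
    abel
  have e1 : (⟪v, y v⟫_ℂ - ⟪w, y w⟫_ℂ).re = (⟪a + b, v + w⟫_ℂ).re := by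
    rw [← yη, inner_proj hys, map_add]
    have : (⟪v, y w⟫_ℂ).re = (⟪w, y v⟫_ℂ).re := by
      rw [← inner_proj hys, ← inner_conj_symm, Complex.conj_re]
    simp only [inner_sub_left, inner_add_right, Complex.sub_re, Complex.add_re]
    linarith
  have e2 : ‖v - w‖ ^ 2 = (⟪a - b, v - w⟫_ℂ).re := by
    rw [show a - b = v - w by rw [hbdef]; abel]
    exact norm_sq_eq_re_inner (𝕜 := ℂ) _
  have p1 := cone_inner_nonneg hm ha hw
  have p2 := hb v hv
  have p3 : (⟪v, y v⟫_ℂ - ⟪w, y w⟫_ℂ).re ≤ ε :=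
    ((Complex.re_le_norm _).trans (h y hyM)).trans (mul_le_of_le_one_right hε hyn)
  rw [e2]
  rw [e1] at p3
  simp only [inner_add_left, inner_add_right, inner_sub_left, inner_sub_right,
    Complex.add_re, Complex.sub_re] at p3 ⊢
  linarith

end Vale.Agent.P132.Cone
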