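import Vale.Agent.P132.Interface
import Vale.Agent.P132.Cone.Basic

/-!
P132, cone: approximate eigen isometries and the corner estimate, from homogeneity.
-/

open scoped InnerProductSpace ComplexConjugate
open Vale.Agent.P104.Continuous
open Vale.Agent.P132.Tomita
open Vale.Agent.P132.Cone

namespace VP132

variable {H : Type} [NormedAddCommGroup H] [InnerProductSpace ℂ H] [CompleteSpace H]
  {M : VonNeumannAlgebra H} {ξ : H} {R : H →L[ℂ] H} {J : H ≃ₗᵢ⋆[ℂ] H} {U : ℝ → (H →L[ℂ] H)}

theorem norm_isometry_apply {z : H →L[ℂ] H} (hz : star z * z = 1) (v : H) : ‖z v‖ = ‖v‖ := by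
  refine (sq_eq_sq₀ (norm_nonneg _) (norm_nonneg _)).1 ?_
  rw [ContinuousLinearMap.apply_norm_sq_eq_inner_adjoint_left,
    ← ContinuousLinearMap.star_eq_adjoint, ← ContinuousLinearMap.mul_def, hz, one_apply_eq_self,
    ← norm_sq_eq_re_inner]

/-- Homogeneity moves a unit vector of the cone near any other one, inside the cone. -/
theorem exists_move_cone (hm : Modular M ξ R J U) (hh : IsHomogeneous H M) {v w : H}
    (hv : v ∈ cone M ξ J) (hv1 : ‖v‖ = 1) (hw : w ∈ cone M ξ J) (hw1 : ‖w‖ = 1) {δ : ℝ}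
    (hδ : 0 < δ) :
    ∃ u ∈ M, star u * u = 1 ∧ u * star u = 1 ∧ ‖u (J (u v)) - w‖ ≤ δ := by
  obtain ⟨u, hu, h1, h2, h⟩ := hh.2 v w hv1 hw1 (δ ^ 2) (pow_pos hδ 2)
  refine ⟨u, hu, h1, h2, (sq_le_sq₀ (norm_nonneg _) hδ.le).1 ?_⟩
  have hmem : u (J (u v)) ∈ cone M ξ J := by
    simpa [cone_fix hm hv] using conj_mem_cone hm hu hv
  refine powers_stormer hm hmem hw (sq_nonneg δ) fun y hy => ?_
  have e : ⟪u (J (u v)), y (u (J (u v)))⟫_ℂ = ⟪v, (star u * y * u) v⟫_ℂ := by
    have hz : star u * y * u ∈ M := mul_mem (mul_mem (star_mem hu) hy) hu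
    have hc := comm_apply hm hu hz v
    rw [cone_fix hm hv] at hc
    calc ⟪u (J (u v)), y (u (J (u v)))⟫_ℂ
        = ⟪J (u v), star u (y (u (J (u v))))⟫_ℂ := by
          rw [ContinuousLinearMap.star_eq_adjoint, ContinuousLinearMap.adjoint_inner_right]
      _ = ⟪J (u v), J (u (J ((star u * y * u) v)))⟫_ℂ := by rw [← hc]; rfl
      _ = conj ⟪(star u * u) v, J ((star u * y * u) v)⟫_ℂ := by
          rw [inner_J, apply_mul (star u) u, ContinuousLinearMap.star_eq_adjoint,
            ContinuousLinearMap.adjoint_inner_left]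
      _ = ⟪v, (star u * y * u) v⟫_ℂ := by
          rw [h1, one_apply_eq_self, ← inner_J (J := J), cone_fix hm hv, hm.J_J]
  rw [e]
  exact h y hy

/-- Approximate eigen isometries of every mass. -/
theorem eigenSpec (hm : Modular M ξ R J U) (hs : IsStandardVector H M ξ)
    (hh : IsHomogeneous H M) (hp : IsProperlyInfinite H M) : EigenSpec M ξ J := by
  intro d hd hd1 e he
  obtain ⟨T, hT, V, hV, hTT, hVV, hsum⟩ := hp
  have hTV : star T * V = 0 := by
    have h' : star T * V + star T * V = star T * V := by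
      calc star T * V + star T * V
          = star T * T * (star T * V) + star T * V * (star V * V) := by
            rw [hTT, hVV, one_mul, mul_one]
        _ = star T * (T * star T + V * star V) * V := by
            simp only [mul_add, add_mul, mul_assoc]
        _ = star T * V := by rw [hsum, mul_one]
    simpa using h'
  have hJT : ∀ z ∈ M, star z * z = 1 → ‖z (J (z ξ))‖ = 1 := fun z _ hz => by
    rw [norm_isometry_apply hz, J.norm_map, norm_isometry_apply hz, hs.1]
  set a : ℂ := ((Real.sqrt d : ℝ) : ℂ) with ha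
  set b : ℂ := ((Real.sqrt (1 - d) : ℝ) : ℂ) with hb
  set ζ := a • T (J (T ξ)) + b • V (J (V ξ)) with hζ
  have hζc : ζ ∈ cone M ξ J :=
    add_mem (smul_mem_cone hm (Real.sqrt_nonneg _) (mem_cone hT))
      (smul_mem_cone hm (Real.sqrt_nonneg _) (mem_cone hV))
  have horth : ⟪a • T (J (T ξ)), b • V (J (V ξ))⟫_ℂ = 0 := by
    rw [inner_smul_left, inner_smul_right]
    have : ⟪T (J (T ξ)), V (J (V ξ))⟫_ℂ = ⟪J (T ξ), (star T * V) (J (V ξ))⟫_ℂ := by
      rw [apply_mul, ContinuousLinearMap.star_eq_adjoint, ContinuousLinearMap.adjoint_inner_right]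
    rw [this, hTV, zero_apply, inner_zero_right, mul_zero, mul_zero]
  have hζ1 : ‖ζ‖ = 1 := by
    have h2 := norm_add_sq_eq_norm_sq_add_norm_sq_of_inner_eq_zero _ _ horth
    rw [norm_smul, norm_smul, hJT T hT hTT, hJT V hV hVV, mul_one, mul_one, ha, hb,
      Complex.norm_real, Complex.norm_real, Real.norm_of_nonneg (Real.sqrt_nonneg _),
      Real.norm_of_nonneg (Real.sqrt_nonneg _), Real.mul_self_sqrt hd.le,
      Real.mul_self_sqrt (by linarith), add_sub_cancel] at h2
    nlinarith [norm_nonneg ζ]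
  have hTζ : star T ζ = a • J (T ξ) := by
    rw [hζ, map_add, map_smul, map_smul, ← apply_mul, ← apply_mul, hTT, hTV, one_apply_eq_self,
      zero_apply, smul_zero, add_zero]
  obtain ⟨u, hu, h1, h2, h⟩ := exists_move_cone hm hh hζc hζ1 (xi_mem_cone hm) hs.1 he
  refine ⟨u * T, mul_mem hu hT, ?_, ?_⟩
  · calc star (u * T) * (u * T) = star T * (star u * u) * T := by
          rw [star_mul]; simp only [mul_assoc]
      _ = 1 := by rw [h1, mul_one, hTT]
  · have hc := comm_apply hm hu (star_mem hT) ζ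
    rw [cone_fix hm hζc, hTζ, ha, J_smul_ofReal, hm.J_J, map_smul, J_smul_ofReal] at hc
    have e1 : star (u * T) (u (J (u ζ))) = a • J (u (T ξ)) := by
      rw [star_mul, apply_mul, ← apply_mul (star u) u, h1, one_apply_eq_self, hc]
    have hS : ‖star (u * T)‖ ≤ 1 := by
      rw [norm_star]
      refine ContinuousLinearMap.opNorm_le_bound _ zero_le_one fun v => ?_
      rw [one_mul, apply_mul, norm_isometry_apply h1, norm_isometry_apply hTT]
    have e2 : rho J (u * T) ξ = J (star (u * T) ξ) := by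
      show J (star (u * T) (J ξ)) = _
      rw [hm.J_xi]
    have e3 : a • (u * T) ξ = J (star (u * T) (u (J (u ζ)))) := by
      rw [e1, ha, J_smul_ofReal, hm.J_J]; rfl
    rw [e2, ← ha, e3, ← map_sub, J.norm_map, ← map_sub]
    exact ((ContinuousLinearMap.le_opNorm _ _).trans
      (mul_le_of_le_one_left (norm_nonneg _) hS)).trans h

/-- The state of a projection of the centralizer is nearly moved to that of `ξ`. -/
theorem cornerSpec (hm : Modular M ξ R J U) (hs : IsStandardVector H M ξ)
    (hh : IsHomogeneous H M) : CornerSpec M ξ J := by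
  intro p hp hps hpp hfix h0 e he
  have hJ : J (p ξ) = p ξ := by
    have : J (star p (J ξ)) = p ξ := hfix
    rwa [hps, hm.J_xi] at this
  have hmem : p ξ ∈ cone M ξ J := by
    have := mem_cone (ξ := ξ) (J := J) hp
    rwa [hJ, ← apply_mul, hpp] at this
  set z := ((‖p ξ‖⁻¹ : ℝ) : ℂ) • p ξ with hz
  have hzc : z ∈ cone M ξ J := smul_mem_cone hm (by positivity) hmem
  have hz1 : ‖z‖ = 1 := by
    rw [hz, norm_smul, Complex.norm_real, Real.norm_of_nonneg (by positivity),
      inv_mul_cancel₀ (norm_ne_zero_iff.2 h0)]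
  obtain ⟨u, hu, h1, h2, h⟩ := exists_move_cone hm hh (xi_mem_cone hm) hs.1 hzc hz1 he
  refine ⟨u, hu, h1, h2, ?_⟩
  have e1 : u ξ - rho J u z = J (star u (u (J (u ξ)) - z)) := by
    rw [map_sub, ← apply_mul (star u) u, h1, one_apply_eq_self, map_sub, hm.J_J]
    congr 1
    show J (star u (J z)) = J (star u z)
    rw [cone_fix hm hzc]
  rw [e1, J.norm_map, norm_isometry_apply (by rw [star_star]; exact h2)]
  exact h

end VP132
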